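import Vale.Agent.P088.R2.H455.S4.SpecN
import Vale.Agent.P088.R2.H404.Spec4
import Vale.Agent.P088.R2.H349.S4.SpecA

/-!
# P088, stage 4 (local theorem for pairs), part B: the closing argument, statements

Twin of `H404/Spec4` (geometry, level function `gx`, stiffness `kk`, domains `Oc`, `Zq`) for the
data `PD` of two pairs.
-/

open MeasureTheory Set Filter Topology
open scoped ContDiff Matrix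

noncomputable section

namespace Vale.Agent.P088.S4

open Vale.Agent.P088.LR Vale.Agent.P088.LR.U Vale.Agent.P088.LR.H158

open Vale.Agent.P088.PJ
open Vale.Agent.P088.HY (VV)
open Vale.Agent.P088.HY.T3 (Eb e0 Ao Ac iv)
open Vale.Agent.P088.HY.T4 (gx kk Oc Zq cg Lvl)
open Vale.Agent.P088.R2.H404 (CoB Ls Ld)

variable {n N : ℕ}

/-- The first order coefficients of the operator in `y`. -/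
def b2 (d : PD n N) : Fin n → MC n N := bR d.s₂ d.P₂ d.G₂

/-- `L_x K`. -/
def LxK (d : PD n N) (K : KC n N) : KC n N := Lk d.s₁ d.β K

/-- `R_y K`. -/
def RyK (d : PD n N) (K : KC n N) : KC n N := Rk d.s₂ (b2 d) K

/-- `dgB` of the data. -/
def dgD (d : PD n N) (K : KC n N) (x : V n) : ℂ := dgB d.s₁ d.s₂ d.P₁ d.P₂ d.G₁ d.G₂ K x

/-- The main tensor of the data. -/
def VD (d : PD n N) : Fin n → Fin n → MC n N := VS d.s₁ d.s₂ d.τ d.P₁ d.P₂ d.G₂ d.β d.Γ d.D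

/-! ## Weights on pairs of points, solvability of the doubly harmonic problem -/

/-- The correction of a quasimode, with a weighted bound. -/
def SolWN (d : PD n N) (r : ℝ) (W w : VV n → ℝ) : Prop :=
  ∀ K0 : KC n N, SmK univ K0 → (∀ a b, HasCompactSupport fun z => K0 z a b) →
    (∀ z, K0 z ≠ 0 → z.1 ∈ Zq n ∧ z.2 ∈ Zq n ∧ ‖z.1 - z.2‖ ≤ r) →
  ∃ K1 : KC n N, SmK (Oc n ×ˢ Oc n) K1 ∧
    (∀ z ∈ Oc n ×ˢ Oc n, LxK d K1 z = -LxK d K0 z) ∧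
    (∀ z ∈ Oc n ×ˢ Oc n, RyK d K1 z = -RyK d K0 z) ∧
    IntegrableOn (fun z => Real.exp (-(2 * W z)) * nq (K1 z)) (Oc n ×ˢ Oc n) ∧
    ∫ z in Oc n ×ˢ Oc n, Real.exp (-(2 * W z)) * nq (K1 z) ≤
      ∫ z, Real.exp (-(2 * W z)) * (nq (LxK d K0 z) + nq (RyK d K0 z)) / w z

/-- As `HY.T4.WB`, with the solvability for the data of two pairs. -/
structure WBN (d : PD n N) (σ a b c C ν R kap Gs : ℝ) (W w : VV n → ℝ) : Prop where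
  Wc : ContinuousOn W (Oc n ×ˢ Oc n)
  wc : ContinuousOn w (Oc n ×ˢ Oc n)
  w0 : ∀ z ∈ Oc n ×ˢ Oc n, 0 < w z
  W1 : ∀ x ∈ Zq n, ∀ y ∈ Zq n, ‖x - y‖ ≤ 1 / R ^ 2 →
    ν * R * (gx n σ x - Gs) + c * kk n σ R kap Gs x ^ 2 * ‖x - y‖ ^ 2 - C ≤ W (x, y)
  W2 : ∀ p ∈ Ac n (99 / 100) 15, ∀ z ∈ Metric.ball (p, p) (2 / (R ^ C + kk n σ R kap Gs p)),
    W z ≤ ν * max (R * (gx n σ p - Gs)) (-Real.log kap) + C * (1 + Real.log R)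
  W3 : ∀ x ∈ Ac n (99 / 100) 21, ∀ y ∈ Ac n (99 / 10) 21, W (x, y) ≤ -(c * R) ∧ W (y, x) ≤ -(c * R)
  w1 : ∀ x ∈ Zq n, ∀ y ∈ Zq n, ‖x - y‖ ≤ 1 / R ^ 2 → kap ^ (1 / 4 : ℝ) ≤ kk n σ R kap Gs x →
    c * R ^ (-C) * kap ^ a * Real.exp (-(b * R * |gx n σ x - Gs|)) ≤ w (x, y)
  w2 : ∀ x ∈ Zq n, ∀ y ∈ Zq n, ‖x - y‖ ≤ 1 / R ^ 2 →
    c * R ^ (-C) * kap ^ (-b) * Real.exp (-(b * R * |gx n σ x - Gs|)) ≤ w (x, y)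
  sol : SolWN d (1 / R ^ 2) W w

/-- **SOLWN**, the outcome of EST' (with the gradient gains) and SOL3 for systems. -/
def RowSOLWN : Prop := ∀ n N : ℕ, 3 ≤ n → 1 ≤ N → ∃ σ a b ν₀ : ℝ, 0 < σ ∧ σ ≤ 1 / 10 ∧ 0 < a ∧
  a ≤ 4 ∧ 0 ≤ b ∧
  ∀ ν : ℝ, ν₀ ≤ ν → ∃ (K : ℕ) (ε c C η R₀ : ℝ), 0 < ε ∧ 0 < c ∧ 3 ≤ C ∧ 0 < η ∧
  ∀ (d : PD n N) (G : Set (V n)), NrmN K ε d G → ∀ R kap Gs : ℝ, R₀ ≤ R → 1 ≤ R →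
    -η ≤ Gs → Gs ≤ 0 → 1 ≤ kap → R ^ C ≤ kap → kap ≤ Real.exp (η * R) →
    (∀ i j, ∀ l ≤ K, ∀ x ∈ Ac n (4 / 5) 22, 1 ≤ kk n σ R kap Gs x →
      ‖iteratedFDeriv ℝ l (fun y => d.s₂ y i j - d.s₁ y i j) x‖ ≤
        kap⁻¹ * kk n σ R kap Gs x ^ (-(ν / 2))) →
    ∃ W w : VV n → ℝ, WBN d σ a b c C ν R kap Gs W w

/-! ## Selection -/

/-- The outcome of the selection and of the interpolation for the data of two pairs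
(see `HY.T4.SelD`). -/
structure SelDN (d : PD n N) (σ ν q : ℝ) (J : ℕ) (C s R kap Gs δ : ℝ) (ps : V n) : Prop where
  pm : ps ∈ Ac n 1 (11 / 10)
  gs : Gs = gx n σ ps
  gs0 : Gs ≤ 0
  δ0 : 0 < δ
  δ1 : δ < 1
  δe : U0 d.s₁ d.s₂ d.P₁ d.P₂ d.D ps = δ ^ 2
  k1 : 1 ≤ kap
  ke : ∃ m : ℝ, ν / 2 ≤ m ∧ m ≤ 2 * ν ∧ δ * kap ^ m = 1
  js : ∀ i j, ∀ l ≤ J, ∀ x ∈ Ac n (4 / 5) 22,
    ‖iteratedFDeriv ℝ l (fun y => d.s₂ y i j - d.s₁ y i j) x‖ *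
      Real.exp (ν * R * (gx n σ x - Gs)) ≤
      C * R ^ C * kap ^ s * δ * Real.exp (-(q * R * |gx n σ x - Gs|))
  jP : ∀ a b, ∀ l ≤ J, ∀ x ∈ Ac n (4 / 5) 22,
    ‖iteratedFDeriv ℝ l (fun y => d.P₂ y a b - d.P₁ y a b) x‖ *
      Real.exp (ν * R * (gx n σ x - Gs)) ≤
      C * R ^ C * kap ^ s * δ * Real.exp (-(q * R * |gx n σ x - Gs|))
  jD : ∀ i a b, ∀ l ≤ J, ∀ x ∈ Ac n (4 / 5) 22,
    ‖iteratedFDeriv ℝ l (fun y => d.D i y a b) x‖ *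
      Real.exp (ν * R * (gx n σ x - Gs)) ≤
      C * R ^ C * kap ^ s * δ * Real.exp (-(q * R * |gx n σ x - Gs|))
  jG : ∀ i a b, ∀ l ≤ J, ∀ x ∈ Ac n (4 / 5) 22,
    ‖iteratedFDeriv ℝ l (fun y => d.G₂ i y a b - d.G₁ i y a b) x‖ *
      Real.exp (ν * R * (gx n σ x - Gs)) ≤
      C * R ^ C * kap ^ s * δ * Real.exp (-(q * R * |gx n σ x - Gs|))

/-- **P1N.** Port of `T4.rowP1` to the family of all entries of `s₂ - s₁`, `P₂ - P₁`, `D_a`,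
`∂_i D_a`; then `G₂ - G₁` by (GI) of part A. -/
def RowP1N : Prop := ∀ n N : ℕ, 3 ≤ n → 1 ≤ N → ∃ (k : ℕ) (ε : ℝ), 0 < ε ∧ ∀ σ : ℝ, 0 < σ →
  σ ≤ 1 / 10 → ∀ q s : ℝ, 0 ≤ q → 0 < s →
  ∃ N₀ : ℝ, ∀ ν : ℝ, N₀ ≤ ν → ∀ (J : ℕ) (d : PD n N) (G : Set (V n)), NrmN k ε d G →
  (∀ δ : ℝ, 0 < δ → ∃ x ∈ Eb (e0 n) δ, ¬EqA d x) →
  ∃ C : ℝ, 0 ≤ C ∧ ∀ C₀ R₀ η : ℝ, 0 < η → ∃ (R kap Gs δ : ℝ) (ps : V n), R₀ ≤ R ∧ 1 ≤ R ∧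
    R ^ C₀ ≤ kap ∧ kap ≤ Real.exp (η * R) ∧ -η ≤ Gs ∧ δ * kap ^ (ν - q / 2) = 1 ∧
    SelDN d σ ν q J C s R kap Gs δ ps

/-! ## Weighted solvability -/

/-- Solvability of the system `Ls s B C w = F` on `O` with the weight `e^{-2ρg}`. -/
def SolvS {m : ℕ} (O : Set (V n)) (s : MF n) (B : Fin m → Fin m → Fin n → V n → ℝ)
    (C : Fin m → Fin m → V n → ℝ) (g : V n → ℝ) (ρ A : ℝ) : Prop :=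
  ∀ F : Fin m → V n → ℝ, (∀ a, ContDiffOn ℝ ∞ (F a) O) →
    (∀ a, IntegrableOn (fun x => F a x ^ 2 * Real.exp (-(2 * ρ * g x))) O) →
  ∃ w : Fin m → V n → ℝ, (∀ a, ContDiffOn ℝ ∞ (w a) O) ∧
    (∀ a, ∀ x ∈ O, Ls s B C w a x = F a x) ∧
    (∀ a, IntegrableOn (fun x => w a x ^ 2 * Real.exp (-(2 * ρ * g x))) O) ∧
    ∑ a, ∫ x in O, w a x ^ 2 * Real.exp (-(2 * ρ * g x)) ≤
      A * ∑ a, ∫ x in O, F a x ^ 2 * Real.exp (-(2 * ρ * g x))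

/-- **P2N.** Weighted solvability of systems in the annulus (`H404.dirwS` pulled back by the
inversion). -/
def RowP2N : Prop := ∀ n m : ℕ, 3 ≤ n → ∀ M σ₀ c₀ : ℝ, 0 < M → 0 < σ₀ → 0 < c₀ →
  ∃ (K : ℕ) (ε C ρ₀ : ℝ), 0 < ε ∧ 1 ≤ C ∧ ∀ s : MF n, SmM s → (∀ x, (s x).IsSymm) →
  (∀ i j, Cl K ε (fun x => s x i j - (1 : Matrix (Fin n) (Fin n) ℝ) i j)) →
  ∀ (B : Fin m → Fin m → Fin n → V n → ℝ) (C' : Fin m → Fin m → V n → ℝ),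
  CoB (Ao n (4 / 5) 24) M B C' → (∀ a b l k, ∀ x ∈ Ao n (4 / 5) 24, |pd k (B a b l) x| ≤ M) →
  ∀ g : V n → ℝ, Lvl n M σ₀ c₀ g → ∀ O : Set (V n), IsOpen O → O ⊆ Ao n (4 / 5) 24 →
  ∀ ρ : ℝ, ρ₀ ≤ ρ → 1 ≤ ρ → SolvS O s B C' (fun x => g (iv x)) ρ (C / ρ ^ 3)

/-- Solvability of `∑ s_ij ∂_i ∂_j W + ∑ (∂_i W) b_i = F` on `O` with the weight `e^{-2ρg}`. -/
def SlR (O : Set (V n)) (s : MF n) (b : Fin n → MC n N) (g : V n → ℝ) (ρ A : ℝ) : Prop :=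
  ∀ F : MC n N, (∀ i j, ContDiffOn ℝ ∞ (fun x => F x i j) O) →
    IntegrableOn (fun x => nq (F x) * Real.exp (-(2 * ρ * g x))) O →
  ∃ W : MC n N, (∀ i j, ContDiffOn ℝ ∞ (fun x => W x i j) O) ∧ (∀ x ∈ O, Rv s b W x = F x) ∧
    IntegrableOn (fun x => nq (W x) * Real.exp (-(2 * ρ * g x))) O ∧
    ∫ x in O, nq (W x) * Real.exp (-(2 * ρ * g x)) ≤
      A * ∫ x in O, nq (F x) * Real.exp (-(2 * ρ * g x))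

/-- Solvability of `∑ ∂_i (s_ij ∂_j w) = F` on `O` with the weight `e^{-2ρg}`. -/
def SlC (O : Set (V n)) (s : MF n) (g : V n → ℝ) (ρ A : ℝ) : Prop :=
  ∀ F : V n → ℝ, ContDiffOn ℝ ∞ F O → IntegrableOn (fun x => F x ^ 2 * Real.exp (-(2 * ρ * g x))) O →
  ∃ w : V n → ℝ, ContDiffOn ℝ ∞ w O ∧ (∀ x ∈ O, Ld s w x = F x) ∧
    IntegrableOn (fun x => w x ^ 2 * Real.exp (-(2 * ρ * g x))) O ∧
    ∫ x in O, w x ^ 2 * Real.exp (-(2 * ρ * g x)) ≤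
      A * ∫ x in O, F x ^ 2 * Real.exp (-(2 * ρ * g x))

/-- **P2R.** (P2N) for the operators which occur. -/
def RowP2R : Prop := ∀ n N : ℕ, 3 ≤ n → 1 ≤ N → ∀ M σ₀ c₀ : ℝ, 0 < M → 0 < σ₀ → 0 < c₀ →
  ∃ (K : ℕ) (ε C ρ₀ : ℝ), 0 < ε ∧ 1 ≤ C ∧ ∀ (d : PD n N) (G : Set (V n)), NrmN K ε d G →
  ∀ g : V n → ℝ, Lvl n M σ₀ c₀ g → ∀ O : Set (V n), IsOpen O → O ⊆ Ao n (4 / 5) 24 →
  ∀ ρ : ℝ, ρ₀ ≤ ρ → 1 ≤ ρ →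
    SlR O d.s₂ (b2 d) (fun x => g (iv x)) ρ (C / ρ ^ 3) ∧
    SlC O d.s₁ (fun x => g (iv x)) ρ (C / ρ ^ 3) ∧ SlC O d.s₂ (fun x => g (iv x)) ρ (C / ρ ^ 3)

/-! ## The main term -/

/-- The main term. -/
def ItN (d : PD n N) (σ ν R kap Gs : ℝ) : ℝ :=
  ∫ x in Ac n (99 / 100) 12, cg n σ R kap Gs x ^ 2 * tn (tfC d.s₁ (VD d)) x *
    Real.exp (2 * (ν * R * (gx n σ x - Gs)))

/-- **P3N.** The lower bound of the main term (from (GE) of part A and P2R). -/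
def RowP3N : Prop := ∀ n N : ℕ, 3 ≤ n → 1 ≤ N → ∀ σ : ℝ, 0 < σ → σ ≤ 1 / 10 → ∃ q₀ : ℝ, ∀ q : ℝ,
  q₀ ≤ q → ∃ N₀ : ℝ, ∀ ν : ℝ, N₀ ≤ ν → ∃ (K : ℕ) (ε : ℝ), 0 < ε ∧ ∀ s : ℝ, 0 < s → s ≤ 1 →
  ∀ C : ℝ, 0 ≤ C → ∃ C' C₀ R₀ η : ℝ, 0 ≤ C' ∧ 0 < η ∧ ∀ (d : PD n N) (G : Set (V n)),
  NrmN K ε d G → ∀ (R kap Gs δ : ℝ) (ps : V n), R₀ ≤ R → 1 ≤ R → R ^ C₀ ≤ kap →
    kap ≤ Real.exp (η * R) → -η ≤ Gs → SelDN d σ ν q 2 C s R kap Gs δ ps →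
    δ ^ 2 ≤ C' * R ^ C' * kap ^ ((n + 4) * s) * ItN d σ ν R kap Gs

/-! ## The quasimode -/

/-- Size of the differences of first order at `x` (the coefficients of the boundary terms). -/
def U1 (d : PD n N) (x : V n) : ℝ :=
  (∑ i, ∑ j, |d.s₂ x i j - d.s₁ x i j|) + (∑ a, ∑ b, ‖d.P₂ x a b - d.P₁ x a b‖) +
    ∑ c, ∑ a, ∑ b, (‖d.D c x a b‖ + ∑ i, ‖pdm i (d.D c) x a b‖)

/-- **QMWN.** The quasimode of a test tensor `k2`, with a cut-off `η` (twin of `S3.rowQMW`; from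
(KL), (KB), (PI) of part A and interior estimates for systems). Only the correctors `W_a`, `W_0`
in `y` are needed, their right hand sides are local in `k2`. -/
def RowQMWN : Prop := ∀ n N : ℕ, 3 ≤ n → 1 ≤ N → ∃ (K m : ℕ) (C ε : ℝ), 1 ≤ C ∧ 0 < ε ∧
  ∀ (O O1 Kc : Set (V n)), IsOpen O → IsOpen O1 → ∀ r : ℝ, 0 < r → r ≤ 1 →
  (∀ x ∈ O1, Metric.ball x r ⊆ O) → ∀ v : ℝ, 0 ≤ v → volume O ≤ ENNReal.ofReal (v ^ 2) →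
  ∀ t : ℝ, 2 ≤ t → (∀ x ∈ O, ‖x‖ ≤ t) →
  ∀ d : PD n N, RLP K ε O Kc d → ∀ (g : V n → ℝ) (Λ : ℝ), ContinuousOn g O → 1 ≤ Λ →
  HY.S3.LG O1 r Λ g → ∀ ρ : ℝ, 1 ≤ ρ → SlR O d.s₂ (b2 d) g ρ 1 →
  ∀ (k2 : Fin n → Fin n → MC n N) (M : ℝ), 0 ≤ M → Tk d.s₁ k2 →
  (∀ i j a b, ∀ l ≤ K, ∀ x ∈ O,
    ‖iteratedFDeriv ℝ l (fun y => k2 i j y a b) x‖ ≤ M * Real.exp (ρ * g x)) →
  ∀ (η : VV n → ℝ) (b : ℝ), ContDiff ℝ ∞ η → tsupport η ⊆ O1 ×ˢ O1 →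
  (∀ l ≤ 2, ∀ z, ‖iteratedFDeriv ℝ l η z‖ ≤ b) →
  ∃ K0 : KC n N, SmK univ K0 ∧ (∀ z ∉ tsupport η, K0 z = 0) ∧
  (∀ z a' b', ‖(LxK d K0 z - (η z : ℂ) • Fx d.s₁ d.τ d.β k2 z) a' b'‖ ≤
    (tsupport (fderiv ℝ η)).indicator (fun z => b * (C * (t * ρ * Λ / r * (v + 1)) ^ m * M) *
      (Real.exp (ρ * g z.1) + Real.exp (ρ * g z.2))) z) ∧
  (∀ z a' b', ‖(RyK d K0 z -
      (η z : ℂ) • Fy d.s₁ d.s₂ d.τ d.P₂ d.G₂ d.β d.Y d.Γ k2 z) a' b'‖ ≤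
    (tsupport (fderiv ℝ η)).indicator (fun z => b * (C * (t * ρ * Λ / r * (v + 1)) ^ m * M) *
      (Real.exp (ρ * g z.1) + Real.exp (ρ * g z.2))) z) ∧
  (∀ z ∈ O1 ×ˢ O1, ∀ a' b', ‖K0 z a' b'‖ ≤ |η z| * (C * (t * ρ * Λ / r * (v + 1)) ^ m * M) *
      (Real.exp (ρ * g z.1) + Real.exp (ρ * g z.2))) ∧
  ∀ χ : V n → ℝ, ContDiff ℝ ∞ χ → HasCompactSupport χ → tsupport χ ⊆ O1 →
  (∀ p ∈ tsupport χ, ∀ᶠ z in 𝓝 ((p, p) : VV n), η z = 1) →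
  ‖(∫ p, (χ p : ℂ) * dgD d K0 p) +
      ∫ p, (χ p : ℂ) * ∑ i, ∑ j, (VD d i j p * k2 i j p).trace‖ ≤
    C * (t * ρ * Λ / r * (v + 1)) ^ m * M *
      ∫ p, ∑ i, |pd i χ p| * (U1 d p * Real.exp (ρ * g p))

/-- The quasimode. -/
structure QKN (d : PD n N) (σ a b c C₁ C' s ν D R kap Gs δ : ℝ) (K : ℕ) (K0 : KC n N) : Prop where
  sm : SmK univ K0
  cs : ∀ a b, HasCompactSupport fun z => K0 z a b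
  su : ∀ z, K0 z ≠ 0 → z.1 ∈ Zq n ∧ z.2 ∈ Zq n ∧ ‖z.1 - z.2‖ ≤ 1 / R ^ 2
  /-- the weighted size of the error -/
  er : ∀ W w : VV n → ℝ, WBN d σ a b c C₁ ν R kap Gs W w →
    ∫ z, Real.exp (-(2 * W z)) * (nq (LxK d K0 z) + nq (RyK d K0 z)) / w z ≤
      C' * R ^ C' * kap ^ (4 * s) * δ ^ 2 * kap ^ (-(n + 4 + a) : ℝ)
  /-- the jets of the error near the diagonal -/
  jt : ∀ p ∈ Ac n 1 12, ∀ l ≤ K, ∀ z ∈ Metric.ball (p, p) (2 / (R ^ C₁ + kk n σ R kap Gs p)),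
    ∀ a' b', ‖iteratedFDeriv ℝ l (fun z => (LxK d K0 z + RyK d K0 z) a' b') z‖ ≤
      C' * R ^ C' * kap ^ (2 * s - 2) * δ * Real.exp ((ν + D) * R * (gx n σ p - Gs)) *
        Real.exp (-((D + n + 4) * R * |gx n σ p - Gs|)) * (R ^ C₁ + kk n σ R kap Gs p) ^ l
  /-- the far values -/
  fa : ∀ x ∈ Oc n, ∀ y ∈ Oc n, (x ∈ Ac n 9 24 ∨ y ∈ Ac n 9 24) → ∀ a' b',
    ‖K0 (x, y) a' b'‖ ≤ C' * Real.exp (-(ν * R / 2))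
  /-- the value of the form -/
  pr : ∀ χ : V n → ℝ, ContDiff ℝ ∞ χ → (∀ x ∉ Ac n (998 / 1000) 12, χ x = 0) →
    (∀ x ∈ Ao n (999 / 1000) 11, χ x = 1) →
    (∀ x, |χ x| ≤ 1) → ∀ B : ℝ, (∀ i x, |pd i χ x| ≤ B) →
    ‖(∫ x, (χ x : ℂ) * dgD d K0 x) - (ItN d σ (ν + D) R kap Gs : ℂ)‖ ≤
      C' * (1 + B) * Real.exp (-(ν * R / 2))

/-- **P4N.** Existence of the quasimode: (QMWN) with
`k2 = - cg² χ_lat (tf VS)ᴴ e^{2 (ν + D) R (gx - Gs)}`, (KB), P2R. -/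
def RowP4N : Prop := ∀ n N : ℕ, 3 ≤ n → 1 ≤ N → ∀ σ a b : ℝ, 0 < σ → σ ≤ 1 / 10 → 0 < a → a ≤ 4 →
  0 ≤ b → ∀ D : ℝ, 2 * b + n + 4 + a + 10 ≤ D → ∃ q : ℝ, 0 ≤ q ∧ ∃ ν₀ : ℝ, ∀ ν : ℝ, ν₀ ≤ ν →
  ∀ K : ℕ, ∃ (J K' : ℕ) (ε : ℝ), 0 < ε ∧ ∀ s : ℝ, 0 < s → s ≤ 1 → ∀ c C₁ C : ℝ, 0 < c → 3 ≤ C₁ →
  0 ≤ C → ∃ C' C₀ R₀ η : ℝ, 0 ≤ C' ∧ 0 < η ∧ ∀ (d : PD n N) (G : Set (V n)), NrmN K' ε d G →
  ∀ (R kap Gs δ : ℝ) (ps : V n), R₀ ≤ R → 1 ≤ R → R ^ C₀ ≤ kap → kap ≤ Real.exp (η * R) →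
    -η ≤ Gs → SelDN d σ (ν + D) q J C s R kap Gs δ ps →
    ∃ K0 : KC n N, QKN d σ a b c C₁ C' s ν D R kap Gs δ K K0

/-! ## The assembly -/

/-- **P5N.** -/
def RowP5N : Prop := RowSOLWN → RowP1N → RowP2R → RowP3N → RowP4N → RowCORE4n

end Vale.Agent.P088.S4
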