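import Vale.Agent.P088.R2.H420.GI
import Vale.Agent.P088.R2.H437.XKOrow
import Vale.Agent.P088.R2.H871.RowKB
import Vale.Agent.P088.R2.H858.XKL
import Vale.Agent.P088.R2.H808.S4.Pi
import Vale.Agent.P088.R2.H972.XME.Row
import Vale.Agent.P088.R2.H999.S4.XTR
import Vale.Agent.P088.R2.H870.XGE
import Vale.Agent.P088.R2.H455.S4.SpecB

/-!
# P088, stage 4: the closed rows
-/

namespace Vale.Agent.P088.S4

theorem cXGI : RowXGI := H420.rowXGI
theorem cXKO : RowXKO := H437.rowXKO
theorem cXKB : RowXKB := rowXKB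
theorem cXKL : RowXKL := H858.rowXKL
theorem cXPI : RowXPI := H808.rowXPI
theorem cXME : RowXME := H972.rowXME cXGI
theorem cXTR : RowXTR := H999.rowXTR cXGI
theorem cXGE : RowXGE := H870.rowXGE cXKO cXTR cXME

end Vale.Agent.P088.S4
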