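import Vale.Agent.P088.R2.H455.S4.Fin4
import Vale.Agent.P088.R2.H561.S4.Ad12

/-!
# P088, stage 4: everything from the two-slot estimate `RowESTh`
-/

open Bundle Manifold MeasureTheory Set Filter Topology
open scoped ContDiff

noncomputable section

set_option linter.all false

namespace Vale.Agent.P088.S4

open Vale.Agent.P088 Vale.Agent.P088.EYM
open Vale.Agent.P088.B Vale.Agent.P088.B2

universe u

/-- The local theorem for two pairs from the two-slot estimate. -/
theorem core4_esth (h : RowESTh) : RowCORE4 := core4_of (solWN_esth h)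

/-- **Stage 4** from the two-slot estimate (one manifold). -/
theorem stage4_one_est (hE : RowESTh) {n N : ℕ} [NeZero n] (hn : 3 ≤ n)
    (hN : 1 ≤ N) {M : Type u} [TopologicalSpace M] [ChartedSpace (EuclideanHalfSpace n) M]
    [IsManifold (𝓡∂ n) ∞ M] [T2Space M] [CompactSpace M] [ConnectedSpace M]
    (Γ O : Set M) (hO : IsOpen O) (hΓ : Γ = O ∩ bd (at_ n M)) (hne : Γ.Nonempty)
    (P Q : Pair (at_ n M) N) (hd : B.SameData Γ P Q) : Related Γ P Q :=
  stage4_one (core4_esth hE) hn hN Γ O hO hΓ hne P Q hd

end Vale.Agent.P088.S4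
end
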