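import Vale.Agent.P088.R2.H561.S4.SpecG

/-!
# P088, stage 3: the two-slot estimate with potentials from the estimate with gains
-/

open MeasureTheory Set
open scoped ContDiff Matrix

noncomputable section

namespace Vale.Agent.P088.S4

open Vale.Agent.P088.LR Vale.Agent.P088.HY Vale.Agent.P088.HY.T3 Vale.Agent.P088.HY.T4
open Vale.Agent.P088.R2.H269 (ky Zi QX QY PX PY QXv QYv PXv PYv Wt Ivd EB EstP Tt)
open Vale.Agent.P088.S4.H437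

variable {n : ℕ}

theorem le_gn (W a₁ a₂ : VV n → ℝ) (z : VV n) : a₁ z ^ 2 + a₂ z ^ 2 ≤ gn W a₁ a₂ z := by
  unfold gn
  have : 0 ≤ ∑ i, ((HY.dx i a₁ z - HY.dx i W z * a₁ z) ^ 2 +
      (HY.dy i a₁ z + HY.dy i W z * a₁ z) ^ 2 +
      (HY.dy i a₂ z - HY.dy i W z * a₂ z) ^ 2 + (HY.dx i a₂ z + HY.dx i W z * a₂ z) ^ 2) :=
    Finset.sum_nonneg fun i _ => by positivity
  linarith

theorem ivg_of {K : ℕ} {ε : ℝ} {s₁ s₂ : MF n} {v₁ v₂ : V n → ℝ} (h : Ivd K ε s₁ s₂ v₁ v₂) :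
    Ivg K ε s₁ s₂ :=
  ⟨h.sm₁, h.sm₂, h.sy₁, h.sy₂, h.cl₁, h.cl₂, fun x hx => ⟨(h.of x hx).1, (h.of x hx).2.1⟩,
    fun x hx => (h.eq x hx).1⟩

theorem sq_pot {o C P p x y u v : ℝ} (h0 : 0 < o) (h1 : o ≤ C) (e : P = p + (u * x + v * y))
    (hu : |u| ≤ 1) (hv : |v| ≤ 1) :
    o * p ^ 2 ≤ 2 * C * P ^ 2 + 4 * C * (x ^ 2 + y ^ 2) := by
  have hC : 0 ≤ C := h0.le.trans h1
  have hr : (u * x + v * y) ^ 2 ≤ 2 * (x ^ 2 + y ^ 2) := by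
    have hu2 : u ^ 2 ≤ 1 := by
      have := sq_le_sq' (by linarith [(abs_le.1 hu).1]) (abs_le.1 hu).2
      simpa using this
    have hv2 : v ^ 2 ≤ 1 := by
      have := sq_le_sq' (by linarith [(abs_le.1 hv).1]) (abs_le.1 hv).2
      simpa using this
    have e1 : u ^ 2 * x ^ 2 ≤ 1 * x ^ 2 := mul_le_mul_of_nonneg_right hu2 (sq_nonneg x)
    have e2 : v ^ 2 * y ^ 2 ≤ 1 * y ^ 2 := mul_le_mul_of_nonneg_right hv2 (sq_nonneg y)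
    nlinarith [sq_nonneg (u * x - v * y)]
  have hp : p ^ 2 ≤ 2 * P ^ 2 + 2 * (u * x + v * y) ^ 2 := by
    have : p = P - (u * x + v * y) := by rw [e]; ring
    rw [this]
    nlinarith [sq_nonneg (P + (u * x + v * y))]
  have hp2 : p ^ 2 ≤ 2 * P ^ 2 + 4 * (x ^ 2 + y ^ 2) := by linarith
  calc o * p ^ 2 ≤ C * (2 * P ^ 2 + 4 * (x ^ 2 + y ^ 2)) :=
        mul_le_mul h1 hp2 (sq_nonneg _) hC
    _ = _ := by ring

/-- The estimate with potentials. -/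
theorem estP_of {s₁ s₂ : MF n} (h₁ : SmM s₁) (h₂ : SmM s₂) {v₁ v₂ : V n → ℝ}
    (hv₁ : ContDiff ℝ ∞ v₁) (hv₂ : ContDiff ℝ ∞ v₂) (b₁ : ∀ x, |v₁ x| ≤ 1) (b₂ : ∀ x, |v₂ x| ≤ 1)
    {W w o₁ o₂ : VV n → ℝ} (hW : ContDiff ℝ ∞ W) (hw : Continuous w) {C₂ : ℝ}
    (c₁ : Continuous o₁) (c₂ : Continuous o₂) (p₁ : ∀ z, 0 < o₁ z ∧ o₁ z ≤ C₂)
    (p₂ : ∀ z, 0 < o₂ z ∧ o₂ z ≤ C₂) (hC₂ : 0 ≤ C₂)
    (est : ∀ a₁ a₂ : VV n → ℝ, ContDiff ℝ ∞ a₁ → HasCompactSupport a₁ → ContDiff ℝ ∞ a₂ →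
      HasCompactSupport a₂ →
      (∫ z, w z * (a₁ z ^ 2 + a₂ z ^ 2)) + (8 * C₂) * ∫ z, gn W a₁ a₂ z ≤
        ∫ z, (o₁ z * (QX s₁ W a₁ z + QY s₂ W a₂ z) ^ 2 +
          o₂ z * (PY s₂ W a₁ z - PX s₁ W a₂ z) ^ 2)) :
    EstP s₁ s₂ v₁ v₂ W (fun z => w z / (2 * C₂ + 1)) 1 := by
  intro a₁ a₂ s1 k1 s2 k2
  have h1 : Tt univ a₁ := ⟨s1, k1, subset_univ _⟩
  have h2 : Tt univ a₂ := ⟨s2, k2, subset_univ _⟩
  have hest := est a₁ a₂ s1 k1 s2 k2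
  have tA : Tt univ (fun z => QXv s₁ v₁ W a₁ z + QYv s₂ v₂ W a₂ z) :=
    tt_add (tt_add (tt_QX h₁ hW h1) (tt_mulL (s_fst hv₁) h1))
      (tt_add (tt_QY h₂ hW h2) (tt_mulL (s_snd hv₂) h2))
  have tB : Tt univ (fun z => PYv s₂ v₂ W a₁ z - PXv s₁ v₁ W a₂ z) :=
    tt_sub (tt_add (tt_PY h₂ hW h1) (tt_mulL (s_snd hv₂) h1))
      (tt_add (tt_PX h₁ hW h2) (tt_mulL (s_fst hv₁) h2))
  have iA := (tt_sq tA).s.continuous.integrable_of_hasCompactSupport (μ := volume) (tt_sq tA).c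
  have iB := (tt_sq tB).s.continuous.integrable_of_hasCompactSupport (μ := volume) (tt_sq tB).c
  have tg := tt_gn hW h1 h2
  have ig : Integrable (gn W a₁ a₂) := tg.s.continuous.integrable_of_hasCompactSupport tg.c
  have i0 : Integrable (fun z => o₁ z * (QX s₁ W a₁ z + QY s₂ W a₂ z) ^ 2
      + o₂ z * (PY s₂ W a₁ z - PX s₁ W a₂ z) ^ 2) :=
    (int_ct c₁ (tt_sq (tt_add (tt_QX h₁ hW h1) (tt_QY h₂ hW h2)))).add
      (int_ct c₂ (tt_sq (tt_sub (tt_PY h₂ hW h1) (tt_PX h₁ hW h2))))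
  have iw : Integrable (fun z => w z * (a₁ z ^ 2 + a₂ z ^ 2)) :=
    int_ct hw (tt_add (tt_sq h1) (tt_sq h2))
  have hpt : ∀ z, o₁ z * (QX s₁ W a₁ z + QY s₂ W a₂ z) ^ 2
      + o₂ z * (PY s₂ W a₁ z - PX s₁ W a₂ z) ^ 2 ≤
      (2 * C₂) * ((QXv s₁ v₁ W a₁ z + QYv s₂ v₂ W a₂ z) ^ 2 +
        1 * (PYv s₂ v₂ W a₁ z - PXv s₁ v₁ W a₂ z) ^ 2) + (8 * C₂) * gn W a₁ a₂ z := by
    intro z
    have e1 := sq_pot (P := QXv s₁ v₁ W a₁ z + QYv s₂ v₂ W a₂ z)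
      (p := QX s₁ W a₁ z + QY s₂ W a₂ z) (x := a₁ z) (y := a₂ z) (p₁ z).1 (p₁ z).2
      (by unfold QXv QYv; ring) (b₁ z.1) (b₂ z.2)
    have e2 := sq_pot (P := PYv s₂ v₂ W a₁ z - PXv s₁ v₁ W a₂ z)
      (p := PY s₂ W a₁ z - PX s₁ W a₂ z) (x := a₁ z) (y := -a₂ z) (u := v₂ z.2) (v := v₁ z.1)
      (p₂ z).1 (p₂ z).2 (by unfold PXv PYv; ring) (b₂ z.2) (b₁ z.1)
    rw [neg_sq] at e2
    have e3 := mul_le_mul_of_nonneg_left (le_gn W a₁ a₂ z) (by linarith : 0 ≤ 8 * C₂)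
    linarith
  have iR : Integrable (fun z => (QXv s₁ v₁ W a₁ z + QYv s₂ v₂ W a₂ z) ^ 2 +
        1 * (PYv s₂ v₂ W a₁ z - PXv s₁ v₁ W a₂ z) ^ 2) := iA.add (iB.const_mul 1)
  have hint := integral_mono i0 ((iR.const_mul (2 * C₂)).add (ig.const_mul (8 * C₂))) hpt
  rw [integral_add' (iR.const_mul _) (ig.const_mul _), integral_const_mul, integral_const_mul]
    at hint
  obtain ⟨R, hR⟩ : ∃ R : ℝ, R = ∫ z, ((QXv s₁ v₁ W a₁ z + QYv s₂ v₂ W a₂ z) ^ 2 +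
        1 * (PYv s₂ v₂ W a₁ z - PXv s₁ v₁ W a₂ z) ^ 2) := ⟨_, rfl⟩
  have hR0 : 0 ≤ R := by
    rw [hR]
    exact integral_nonneg fun z => by positivity
  rw [← hR] at hint ⊢
  have hL : ∫ z, (w z / (2 * C₂ + 1)) * (a₁ z ^ 2 + a₂ z ^ 2) =
      (∫ z, w z * (a₁ z ^ 2 + a₂ z ^ 2)) / (2 * C₂ + 1) := by
    rw [← integral_div]
    congr 1
    funext z
    ring
  rw [hL, div_le_iff₀ (by linarith)]
  linarith

/-- **RowEST** from the estimate with gains. -/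
theorem rowEST_of (h : RowESTg) : R2.H269.RowEST := by
  intro n hn
  obtain ⟨σ, a, b, ν₀, h1, h2, h3, -, h4, h⟩ := h n hn
  refine ⟨σ, a, b, ν₀, h1, h2, h3, h4, fun ν hν => ?_⟩
  obtain ⟨C₂, hC₂, h⟩ := h ν hν
  obtain ⟨K, ε, c, C, η, R₀, h5, h6, h7, h8, h⟩ := h (8 * C₂) (by linarith)
  have hD : (0 : ℝ) < 2 * C₂ + 1 := by linarith
  have hD1 : c / (2 * C₂ + 1) ≤ c := div_le_self h6.le (by linarith)
  refine ⟨K, min ε 1, c / (2 * C₂ + 1), C, η, R₀, lt_min h5 one_pos, by positivity, h7, h8,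
    fun s₁ s₂ v₁ v₂ hI R kap Gs a1 a2 a3 a4 a5 a6 a7 a8 => ?_⟩
  have hIg : Ivg K ε s₁ s₂ :=
    ⟨hI.sm₁, hI.sm₂, hI.sy₁, hI.sy₂,
      fun i j l hl x => (hI.cl₁ i j l hl x).trans (min_le_left _ _),
      fun i j l hl x => (hI.cl₂ i j l hl x).trans (min_le_left _ _),
      fun x hx => ⟨(hI.of x hx).1, (hI.of x hx).2.1⟩, fun x hx => (hI.eq x hx).1⟩
  have hb : ∀ {v : V n → ℝ}, Cl K (min ε 1) v → ∀ x, |v x| ≤ 1 := by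
    intro v hv x
    have := hv 0 (Nat.zero_le _) x
    rw [norm_iteratedFDeriv_zero, Real.norm_eq_abs] at this
    exact this.trans (min_le_right _ _)
  obtain ⟨W, w, hE⟩ := h s₁ s₂ hIg R kap Gs a1 a2 a3 a4 a5 a6 a7 fun y hy hk =>
    (a8 y hy hk).1
  obtain ⟨o₁, o₂, c₁, c₂, p₁, p₂, est⟩ := hE.est
  obtain ⟨B, -, hWt⟩ := hE.wt
  have hR0 : (0 : ℝ) ≤ R := by linarith
  have hmul : ∀ {x y : ℝ}, 0 ≤ y → c * y ≤ x → c / (2 * C₂ + 1) * y ≤ x / (2 * C₂ + 1) := by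
    intro x y _ hxy
    rw [div_mul_eq_mul_div]
    exact div_le_div_of_nonneg_right hxy hD.le
  refine ⟨W, fun z => w z / (2 * C₂ + 1), hE.wt, hE.wc.div_const _, fun z => div_pos (hE.w0 z) hD,
    fun x hx y hy hxy => ?_, hE.W2, fun x hx y hy => ?_, fun x hx y hy hxy hk => ?_,
    fun x hx y hy hxy => ?_, 1, one_pos, ?_⟩
  · refine le_trans ?_ (hE.W1 x hx y hy hxy)
    have : c / (2 * C₂ + 1) * ky n σ R kap Gs x ^ 2 * ‖x - y‖ ^ 2 ≤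
        c * ky n σ R kap Gs x ^ 2 * ‖x - y‖ ^ 2 := by
      rw [mul_assoc, mul_assoc]
      exact mul_le_mul_of_nonneg_right hD1 (by positivity)
    linarith
  · obtain ⟨e1, e2⟩ := hE.W3 x hx y hy
    have : c / (2 * C₂ + 1) * R ≤ c * R := mul_le_mul_of_nonneg_right hD1 hR0
    exact ⟨by linarith, by linarith⟩
  · have := hE.w1 x hx y hy hxy hk
    rw [mul_assoc, mul_assoc] at this ⊢
    exact hmul (by positivity) this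
  · have := hE.w2 x hx y hy hxy
    rw [mul_assoc, mul_assoc] at this ⊢
    exact hmul (by positivity) this
  · exact estP_of hI.sm₁ hI.sm₂ hI.sv₁ hI.sv₂ (hb hI.cv₁) (hb hI.cv₂) hWt.sm hE.wc c₁ c₂ p₁ p₂ hC₂
      est

end Vale.Agent.P088.S4
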