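import Vale.Agent.P088.R2.H455.S4.Close4
import Vale.Agent.P088.R2.H455.S4.Main4
import Vale.Agent.P088.R2.H710.S4.Fin4
import Vale.Agent.P088.R2.H850.St4
import Vale.Agent.P088.R2.H794.S4.Norm5
import Vale.Agent.P088.R2.H972.P5N.Close
import Vale.Agent.P088.R2.H341.S4.P1N
import Vale.Agent.P088.R2.H999.S4.PG
import Vale.Agent.P088.R2.H871.Q.QMWN
import Vale.Agent.P088.R2.H808.S4.P2R
import Vale.Agent.P088.R2.H437.P2Nrow
import Vale.Agent.P088.R2.H238.S4.P4N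

/-!
# P088, stage 4: pairs of a metric and a connection, the final theorem from the closed rows
-/

open Bundle Manifold MeasureTheory Set Filter Topology
open scoped ContDiff

noncomputable section

set_option linter.all false

namespace Vale.Agent.P088.S4

open Vale.Agent.P088 Vale.Agent.P088.EYM
open Vale.Agent.P088.B Vale.Agent.P088.B2

universe u

theorem cP2R : RowP2R := H808.rowP2R H437.rowP2N
theorem cP3N : RowP3N := H999.P3.rowP3N cP2R cXGE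
theorem cP1N : RowP1N := H341.rowP1N
theorem cQMWN : RowQMWN := rowQMWN
theorem cP4N : RowP4N := H238.rowP4N cQMWN cXKB cP2R

/-- The local theorem for two pairs from the solutions with weights. -/
theorem core4_of (hS : RowSOLWN) : RowCORE4 :=
  R2.H794.S4.rowNORM4 (H972.rowP5N hS cP1N cP2R cP3N cP4N)

/-- **The final theorem of stage 4** (two manifolds) from the local theorem. -/
theorem stage4 (hC : RowCORE4) {n N : ℕ} [NeZero n] (hn : 3 ≤ n)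
    (hN : 1 ≤ N) {M₁ M₂ : Type u}
    [TopologicalSpace M₁] [ChartedSpace (EuclideanHalfSpace n) M₁] [IsManifold (𝓡∂ n) ∞ M₁]
    [T2Space M₁] [CompactSpace M₁] [ConnectedSpace M₁]
    [TopologicalSpace M₂] [ChartedSpace (EuclideanHalfSpace n) M₂] [IsManifold (𝓡∂ n) ∞ M₂]
    [T2Space M₂] [CompactSpace M₂] [ConnectedSpace M₂]
    (Γ₁ O₁ : Set M₁) (hO₁ : IsOpen O₁) (hΓ₁ : Γ₁ = O₁ ∩ bd (at_ n M₁))
    (Γ₂ O₂ : Set M₂) (hO₂ : IsOpen O₂) (hΓ₂ : Γ₂ = O₂ ∩ bd (at_ n M₂)) (hne₂ : Γ₂.Nonempty)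
    (ψ : M₂ → M₁) (hψ : Iden N (at_ n M₁) (at_ n M₂) Γ₁ Γ₂ ψ) (P : Pair (at_ n M₁) N)
    (Q : Pair (at_ n M₂) N) (hdata : SameData₂ Γ₁ Γ₂ ψ P Q) :
    UniqueRel₂ Γ₁ Γ₂ ψ P Q :=
  pairs_two (R2.H710.rowLX4 hC) (R2.H850.rowSTART4 hC) hn hN Γ₁ O₁ hO₁ hΓ₁ Γ₂ O₂ hO₂ hΓ₂ hne₂ ψ
    hψ P Q hdata

/-- **The final theorem of stage 4** (one manifold, Q1 in full) from the local theorem. -/
theorem stage4_one (hC : RowCORE4) {n N : ℕ} [NeZero n] (hn : 3 ≤ n)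
    (hN : 1 ≤ N) {M : Type u} [TopologicalSpace M] [ChartedSpace (EuclideanHalfSpace n) M]
    [IsManifold (𝓡∂ n) ∞ M] [T2Space M] [CompactSpace M] [ConnectedSpace M]
    (Γ O : Set M) (hO : IsOpen O) (hΓ : Γ = O ∩ bd (at_ n M)) (hne : Γ.Nonempty)
    (P Q : Pair (at_ n M) N) (hd : B.SameData Γ P Q) : Related Γ P Q :=
  pairs_one (R2.H710.rowLX4 hC) (R2.H850.rowSTART4 hC) hn hN Γ O hO hΓ hne P Q hd

end Vale.Agent.P088.S4
end
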