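import Vale.Agent.P088.R2.H269.X.Spec
import Vale.Agent.P088.R2.H437.ESTN

/-!
# P088, stages 3 and 4: the two-slot estimate with gains, statement
-/

open MeasureTheory Set
open scoped ContDiff Matrix

noncomputable section

namespace Vale.Agent.P088.S4

open Vale.Agent.P088.LR
open Vale.Agent.P088.HY (VV)
open Vale.Agent.P088.HY.T3 (Ac)
open Vale.Agent.P088.R2.H269 (QXv QYv PXv PYv Ivd EB ky EstP)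
open Vale.Agent.P088.S4.H437 (gn)

variable {n : ℕ}

/-- The a priori estimate with a gain in all first order quantities. -/
def EstG (s₁ s₂ : MF n) (v₁ v₂ : V n → ℝ) (W w : VV n → ℝ) (Mw G₀ : ℝ) : Prop :=
  ∀ a₁ a₂ : VV n → ℝ, ContDiff ℝ ∞ a₁ → HasCompactSupport a₁ → ContDiff ℝ ∞ a₂ →
    HasCompactSupport a₂ →
    (∫ z, w z * (a₁ z ^ 2 + a₂ z ^ 2)) + G₀ * ∫ z, gn W a₁ a₂ z ≤
      ∫ z, ((QXv s₁ v₁ W a₁ z + QYv s₂ v₂ W a₂ z) ^ 2 +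
        Mw * (PYv s₂ v₂ W a₁ z - PXv s₁ v₁ W a₂ z) ^ 2)

/-- **EST' with gains** (stage 4; it contains `RowEST`). The gain `G₀` is arbitrary, `R₀` depends on
it (in rate units the coefficient of the gain is `c σ N / R`, in unit scale `c σ N R`). -/
def RowESTG : Prop := ∀ n : ℕ, 3 ≤ n → ∃ σ a b ν₀ : ℝ, 0 < σ ∧ σ ≤ 1 / 10 ∧ 0 < a ∧ 0 ≤ b ∧
  ∀ ν : ℝ, ν₀ ≤ ν → ∃ (K : ℕ) (ε c C η : ℝ), 0 < ε ∧ 0 < c ∧ 0 ≤ C ∧ 0 < η ∧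
  ∀ G₀ : ℝ, 0 ≤ G₀ → ∃ R₀ : ℝ,
  ∀ (s₁ s₂ : MF n) (v₁ v₂ : V n → ℝ), Ivd K ε s₁ s₂ v₁ v₂ → ∀ R kap Gs : ℝ, R₀ ≤ R → 1 ≤ R →
    -η ≤ Gs → Gs ≤ 0 → 1 ≤ kap → R ^ C ≤ kap → kap ≤ Real.exp (η * R) →
    (∀ y ∈ Ac n (1 / 22) 1, 1 ≤ ky n σ R kap Gs y →
      (∀ i j, ∀ l ≤ K, ‖iteratedFDeriv ℝ l (fun x => s₂ x i j - s₁ x i j) y‖ ≤
        kap ^ (-(1 / 2) : ℝ) * ky n σ R kap Gs y ^ (-(ν / 2))) ∧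
      ∀ l ≤ K, ‖iteratedFDeriv ℝ l (fun x => v₂ x - v₁ x) y‖ ≤
        kap ^ (-(1 / 2) : ℝ) * ky n σ R kap Gs y ^ (-(ν / 2))) →
    ∃ W w : VV n → ℝ, EB s₁ s₂ v₁ v₂ σ a b c C ν R kap Gs W w ∧
      ∃ Mw : ℝ, 0 < Mw ∧ Mw ≤ C ∧ EstG s₁ s₂ v₁ v₂ W w Mw G₀

theorem est_of (h : RowESTG) : R2.H269.RowEST := by
  intro n hn
  obtain ⟨σ, a, b, ν₀, h1, h2, h3, h4, h⟩ := h n hn
  refine ⟨σ, a, b, ν₀, h1, h2, h3, h4, fun ν hν => ?_⟩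
  obtain ⟨K, ε, c, C, η, h5, h6, h7, h8, h⟩ := h ν hν
  obtain ⟨R₀, h⟩ := h 0 le_rfl
  refine ⟨K, ε, c, C, η, R₀, h5, h6, h7, h8, fun s₁ s₂ v₁ v₂ hI R kap Gs a1 a2 a3 a4 a5 a6 a7 a8 => ?_⟩
  obtain ⟨W, w, hE, -⟩ := h s₁ s₂ v₁ v₂ hI R kap Gs a1 a2 a3 a4 a5 a6 a7 a8
  exact ⟨W, w, hE⟩

end Vale.Agent.P088.S4
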